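import Vale.Agent.Lib.P047.Upper.Abs

/-!
# P047: a constant-factor improvement of the upper bound `M(d) ≤ d`

For a Boolean function `f` on the cube of degree at most `d`, the sum of the absolute values of
its level-one Fourier coefficients is at most `(973/1000) d` when `d ≥ 2`, and at most
`(47/50) d` when `d ≥ 64`. The proof rests on a differential inequality for
`P(t) = ∑_S f^(S) t^|S|` (the mean of `f` under the product measure with coordinate means `t`),
namely `(1 - t) |P'(t)| ≤ d (1 - P(t)^2)` on `[0, 1]`, which is the last statement; the third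
statement is the bound `d - 1` for even `d`.
-/

namespace Vale.Agent.Results.P047.UpperBound

open Vale.Agent.Lib.P047

theorem result :
    (∀ (n d : ℕ) (f : (Fin n → Bool) → ℝ), IsBoolean f → DegLE f d → 2 ≤ d →
      ∑ i : Fin n, |fourier f {i}| ≤ 973 / 1000 * d) ∧
    (∀ (n d : ℕ) (f : (Fin n → Bool) → ℝ), IsBoolean f → DegLE f d → 64 ≤ d →
      ∑ i : Fin n, |fourier f {i}| ≤ 47 / 50 * d) ∧
    (∀ (n d : ℕ) (f : (Fin n → Bool) → ℝ), IsBoolean f → DegLE f d → Even d → 2 ≤ d →
      ∑ i : Fin n, |fourier f {i}| ≤ (d : ℝ) - 1) ∧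
    (∀ (n d : ℕ) (f : (Fin n → Bool) → ℝ), IsBoolean f → DegLE f d →
      ∀ t : ℝ, 0 ≤ t → t ≤ 1 →
        (1 - t) * |∑ S : Finset (Fin n), fourier f S * ((S.card : ℝ) * t ^ (S.card - 1))|
          ≤ d * (1 - (∑ S : Finset (Fin n), fourier f S * t ^ S.card) ^ 2)) :=
  ⟨fun _ _ f hf hd hd2 => sum_abs_le_973 f hf hd hd2,
   fun _ _ f hf hd hd64 => sum_abs_le_large f hf hd hd64,
   fun _ _ f hf hd he hd2 => sum_abs_le_even f hf hd he hd2,
   fun _ _ f hf hd t ht0 ht1 => bias_ode_sums f hf hd t ht0 ht1⟩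

end Vale.Agent.Results.P047.UpperBound
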