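import Vale.Agent.Results.P047.MainResults
import Vale.Agent.Results.P047.UpperBound

/-!
# P047: the results of `MainResults` and `UpperBound` in one statement

The first part is the statement of `MainResults` (the exact value `7/4` in degree four, functions
of degrees five and seven with level-one sums `17/8` and `39/16`, self-improvement of power
bounds, equivalence of the two forms of the square-root inequality); the second part is the
statement of `UpperBound` (the bounds `(973/1000) d`, `(47/50) d`, `d - 1` and the differential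
inequality). Both are repeated word for word.
-/

namespace Vale.Agent.Results.P047.MainAndUpperBound

open Vale.Agent.Lib.P047

theorem result :
    ((∀ (n : ℕ) (f : (Fin n → Bool) → ℝ), IsBoolean f →
        (∀ S : Finset (Fin n), 4 < S.card → Odd S.card → fourier f S = 0) →
        ∑ i, |fourier f {i}| ≤ 7 / 4) ∧
      (∃ f : (Fin 7 → Bool) → ℝ, IsBoolean f ∧ DegLE f 4 ∧ levelOne f = 7 / 4) ∧
      (∃ f : (Fin 10 → Bool) → ℝ, IsBoolean f ∧ DegLE f 5 ∧ ¬ DegLE f 4 ∧ fourier f ∅ = 0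
        ∧ levelOne f = 17 / 8) ∧
      (∃ f : (Fin 12 → Bool) → ℝ, IsBoolean f ∧ DegLE f 7 ∧ ¬ DegLE f 6 ∧ fourier f ∅ = 0
        ∧ levelOne f = 39 / 16) ∧
      (∀ C α : ℝ,
        (∀ (n d : ℕ) (f : (Fin n → Bool) → ℝ), IsBoolean f → DegLE f d →
          levelOne f ≤ C * (d : ℝ) ^ α) →
        ∀ (n d : ℕ) (f : (Fin n → Bool) → ℝ), IsBoolean f → DegLE f d →
          levelOne f ≤ (d : ℝ) ^ α) ∧
      ((∃ C : ℝ, ∀ (n d : ℕ) (f : (Fin n → Bool) → ℝ), IsBoolean f → DegLE f d →
          levelOne f ≤ C * Real.sqrt d) ↔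
        ∀ (n d : ℕ) (f : (Fin n → Bool) → ℝ), IsBoolean f → DegLE f d →
          levelOne f ≤ Real.sqrt d)) ∧
    ((∀ (n d : ℕ) (f : (Fin n → Bool) → ℝ), IsBoolean f → DegLE f d → 2 ≤ d →
        ∑ i : Fin n, |fourier f {i}| ≤ 973 / 1000 * d) ∧
      (∀ (n d : ℕ) (f : (Fin n → Bool) → ℝ), IsBoolean f → DegLE f d → 64 ≤ d →
        ∑ i : Fin n, |fourier f {i}| ≤ 47 / 50 * d) ∧
      (∀ (n d : ℕ) (f : (Fin n → Bool) → ℝ), IsBoolean f → DegLE f d → Even d → 2 ≤ d →
        ∑ i : Fin n, |fourier f {i}| ≤ (d : ℝ) - 1) ∧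
      (∀ (n d : ℕ) (f : (Fin n → Bool) → ℝ), IsBoolean f → DegLE f d →
        ∀ t : ℝ, 0 ≤ t → t ≤ 1 →
          (1 - t) * |∑ S : Finset (Fin n), fourier f S * ((S.card : ℝ) * t ^ (S.card - 1))|
            ≤ d * (1 - (∑ S : Finset (Fin n), fourier f S * t ^ S.card) ^ 2))) :=
  ⟨Vale.Agent.Results.P047.MainResults.result, Vale.Agent.Results.P047.UpperBound.result⟩

end Vale.Agent.Results.P047.MainAndUpperBound
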