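import Vale.Agent.Lib.P047.Transport
import Vale.Agent.Lib.P047.ExFive
import Vale.Agent.Lib.P047.ExSeven
import Vale.Agent.Lib.P047.FullPower

namespace Vale.Agent.Results.P047.MainResults

open Vale.Agent.Lib.P047

/-- The sum of the level-one Fourier coefficients of Boolean functions of given degree.

* Degree four: if all Fourier coefficients on sets of odd size at least five vanish, the sum of
  the absolute values of the level-one coefficients is at most `7/4`, and `7/4` is attained by a
  function of degree at most four on seven variables.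
* Degrees five and seven: functions with mean zero and level-one sums `17/8` and `39/16`.
* A bound `C * d ^ α` for all Boolean functions of degree at most `d` improves itself to `d ^ α`.
* The inequality with some constant in front of `sqrt d` holds for all Boolean functions if and
  only if it holds with the constant `1`. -/
theorem result :
    (∀ (n : ℕ) (f : (Fin n → Bool) → ℝ), IsBoolean f →
      (∀ S : Finset (Fin n), 4 < S.card → Odd S.card → fourier f S = 0) →
      ∑ i, |fourier f {i}| ≤ 7 / 4) ∧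
    (∃ f : (Fin 7 → Bool) → ℝ, IsBoolean f ∧ DegLE f 4 ∧ levelOne f = 7 / 4) ∧
    (∃ f : (Fin 10 → Bool) → ℝ, IsBoolean f ∧ DegLE f 5 ∧ ¬ DegLE f 4 ∧ fourier f ∅ = 0
      ∧ levelOne f = 17 / 8) ∧
    (∃ f : (Fin 12 → Bool) → ℝ, IsBoolean f ∧ DegLE f 7 ∧ ¬ DegLE f 6 ∧ fourier f ∅ = 0
      ∧ levelOne f = 39 / 16) ∧
    (∀ C α : ℝ,
      (∀ (n d : ℕ) (f : (Fin n → Bool) → ℝ), IsBoolean f → DegLE f d →
        levelOne f ≤ C * (d : ℝ) ^ α) →
      ∀ (n d : ℕ) (f : (Fin n → Bool) → ℝ), IsBoolean f → DegLE f d →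
        levelOne f ≤ (d : ℝ) ^ α) ∧
    ((∃ C : ℝ, ∀ (n d : ℕ) (f : (Fin n → Bool) → ℝ), IsBoolean f → DegLE f d →
        levelOne f ≤ C * Real.sqrt d) ↔
      ∀ (n d : ℕ) (f : (Fin n → Bool) → ℝ), IsBoolean f → DegLE f d →
        levelOne f ≤ Real.sqrt d) := by
  refine ⟨?_, exists_seven, ?_, ?_, ?_, ?_, ?_⟩
  · intro n f hf hodd
    exact odd_cubic_bound_bool f hf hodd
  · obtain ⟨f, h1, h2, h3, h4, h5⟩ := Tr.exists_of_table_exact 10 4 2176 (Tr.build 10 tblFive)
      (fun i : Fin 10 => Nat.testBit 976 i.val) tblFive_a tblFive_b tblFive_c tblFive_d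
      tblFive_e tblFive_f
    refine ⟨f, h1, h2, h3, h4, ?_⟩
    rw [h5]
    norm_num
  · obtain ⟨f, h1, h2, h3, h4, h5⟩ := Tr.exists_of_table_exact 12 6 9984 (Tr.build 12 tblSeven)
      (fun i : Fin 12 => Nat.testBit 4064 i.val) tblSeven_a tblSeven_b tblSeven_c tblSeven_d
      tblSeven_e tblSeven_f
    refine ⟨f, h1, h2, h3, h4, ?_⟩
    rw [h5]
    norm_num
  · intro C α hweak n d f hf hd
    exact power_law_all C α hweak n d f hf hd
  · rintro ⟨C, hC⟩ n d f hf hd
    exact sqrt_of_weak C hC n d f hf hd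
  · intro h
    exact ⟨1, fun n d f hf hd => by rw [one_mul]; exact h n d f hf hd⟩

end Vale.Agent.Results.P047.MainResults
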