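import Vale.Agent.Lib.P047.helper64.Main
import Vale.Agent.Lib.P047.helper64.Example7
import Vale.Agent.Lib.P047.helper64.Subcube
import Vale.Agent.Lib.P047.helper64.Sharp
import Vale.Agent.Lib.P047.helper64.OneSided
import Vale.Agent.Lib.P047.helper64.OneSidedAvg

/-!
# P047: sharp and one-sided level-one bounds for subcube partitions, and `M(4) = 7/4`

* (Subcube partitions.)  Let `F` describe a partition of the cube `{-1,1}^n` into subcubes
  (`F x` = the set of coordinates fixed on the part through `x`) and let the real function `f` be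
  constant on every part.  If `|f| ≤ 1` then `∑ i, |fourierCoeff f {i}|` is at most the square root
  of the average of `(F x).card`; for every real `m` it is at most the square root of
  (average of `(f - m)^2`) times (average of `(F x).card`); and it is at most `√d` if every part
  fixes at most `d` coordinates.
* (Degree four.)  Every function from the cube to `{-1,1}` of degree at most four has
  `∑ i, |fourierCoeff f {i}| ≤ 7/4`, and a function on seven variables attains `7/4`.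
* (Sharp form.)  If `|f| ≤ 1` and every part fixes at most `k` coordinates, then
  `∑ i, |fourierCoeff f {i}|` is at most the average over `{-1,1}^k` of `|y_1 + ... + y_k|`, and
  for every `k` a `±1` valued function on `{-1,1}^k` (with the partition into points) attains it.
* (One-sided form.)  If `|f| ≤ 1` and every part on which `f` is not `-1` fixes at most `c`
  coordinates (the parts on which `f = -1` are arbitrary), then
  `∑ i, |fourierCoeff f {i}| ≤ 2 * √c`.
* (One-sided average form.)  If `|f| ≤ 1`, then `∑ i, |fourierCoeff f {i}|` is at most twice the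
  square root of (average of `(1 + f x) * (F x).card`) times (average of `1 - f x`).
-/

namespace Vale.Agent.Results.P047.SubcubesOneSidedSharpDegFour

open Vale.Agent.Lib.P047.helper64

theorem result :
    (((∀ (n : ℕ) (F : (Fin n → ℤˣ) → Finset (Fin n)) (f : (Fin n → ℤˣ) → ℝ),
      IsSubcubePartition F →
      (∀ x y : Fin n → ℤˣ, (∀ i ∈ F x, y i = x i) → f y = f x) →
      ((∀ x, |f x| ≤ 1) →
        ∑ i, |fourierCoeff f {i}| ≤ Real.sqrt ((∑ x, ((F x).card : ℝ)) / 2 ^ n)) ∧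
      (∀ m : ℝ, ∑ i, |fourierCoeff f {i}|
        ≤ Real.sqrt (((∑ x, (f x - m) ^ 2) / 2 ^ n) * ((∑ x, ((F x).card : ℝ)) / 2 ^ n))) ∧
      (∀ d : ℕ, (∀ x, |f x| ≤ 1) → (∀ x, (F x).card ≤ d) →
        ∑ i, |fourierCoeff f {i}| ≤ Real.sqrt d)) ∧
    (∀ (n : ℕ) (f : (Fin n → ℤˣ) → ℝ), (∀ x, f x = 1 ∨ f x = -1) →
      (∀ S : Finset (Fin n), 4 < S.card → fourierCoeff f S = 0) →
      ∑ i, |fourierCoeff f {i}| ≤ 7 / 4) ∧
    (∃ f : (Fin 7 → ℤˣ) → ℝ, (∀ x, f x = 1 ∨ f x = -1) ∧
      (∀ S : Finset (Fin 7), 4 < S.card → fourierCoeff f S = 0) ∧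
      ∑ i, fourierCoeff f {i} = 7 / 4)) ∧
    (∀ (n k : ℕ) (F : (Fin n → ℤˣ) → Finset (Fin n)) (f : (Fin n → ℤˣ) → ℝ),
      IsSubcubePartition F →
      (∀ x y : Fin n → ℤˣ, (∀ i ∈ F x, y i = x i) → f y = f x) →
      (∀ x, |f x| ≤ 1) → (∀ x, (F x).card ≤ k) →
      ∑ i, |fourierCoeff f {i}| ≤ (∑ y : Fin k → ℤˣ, |∑ i, ((y i : ℤ) : ℝ)|) / 2 ^ k) ∧
    (∀ k : ℕ, ∃ (F : (Fin k → ℤˣ) → Finset (Fin k)) (f : (Fin k → ℤˣ) → ℝ),
      IsSubcubePartition F ∧
      (∀ x y : Fin k → ℤˣ, (∀ i ∈ F x, y i = x i) → f y = f x) ∧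
      (∀ x, f x = 1 ∨ f x = -1) ∧ (∀ x, (F x).card ≤ k) ∧
      ∑ i, fourierCoeff f {i} = (∑ y : Fin k → ℤˣ, |∑ i, ((y i : ℤ) : ℝ)|) / 2 ^ k)) ∧
    (∀ (n c : ℕ) (F : (Fin n → ℤˣ) → Finset (Fin n)) (f : (Fin n → ℤˣ) → ℝ),
      IsSubcubePartition F →
      (∀ x y : Fin n → ℤˣ, (∀ i ∈ F x, y i = x i) → f y = f x) →
      (∀ x, |f x| ≤ 1) → (∀ x, f x ≠ -1 → (F x).card ≤ c) →
      ∑ i, |fourierCoeff f {i}| ≤ 2 * Real.sqrt c) ∧
    (∀ (n : ℕ) (F : (Fin n → ℤˣ) → Finset (Fin n)) (f : (Fin n → ℤˣ) → ℝ),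
      IsSubcubePartition F →
      (∀ x y : Fin n → ℤˣ, (∀ i ∈ F x, y i = x i) → f y = f x) →
      (∀ x, |f x| ≤ 1) →
      ∑ i, |fourierCoeff f {i}|
        ≤ 2 * Real.sqrt (((∑ x, (1 + f x) * ((F x).card : ℝ)) / 2 ^ n)
          * ((∑ x, (1 - f x)) / 2 ^ n))) := by
  refine ⟨?_, fun n c F f hF hconst hf hc =>
    subcube_partition_bound_one_sided F hF f hf hconst c hc,
    fun n F f hF hconst hf => subcube_partition_bound_one_sided_sqrt F hF f hf hconst⟩
  refine ⟨⟨fun n F f hF hconst => ⟨fun hf => subcube_partition_bound F hF f hf hconst,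
      fun m => subcube_partition_bound_var F hF f hconst m,
      fun d hf hd => subcube_partition_bound_max F hF f hf hconst d hd⟩,
    fun n f hf hdeg => degree_four_bound f hf hdeg, ex7, ex7_boolean, ex7_degree, ?_⟩,
    fun n k F f hF hconst hf hk => subcube_partition_bound_sharp F hF f hf hconst k hk,
    sharp_example⟩
  simp_rw [ex7_level_one]
  simp
  norm_num

end Vale.Agent.Results.P047.SubcubesOneSidedSharpDegFour
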